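import Vale.Agent.P315.Bdl.B1

namespace Vale.Agent.Results.P315.AlphabetReduction

open Vale.Agent.P315

/-- Alphabet reduction for `(1 + ε)`-approximate edit distance. Let `0 < ε < 1`. Encode every
symbol of an alphabet of `N` symbols by a word of length `L ≥ 15 log N / ε` over an alphabet of
`q ≥ 503 / ε²` symbols. For all but a `1/N` fraction of the codes `c`, symbolwise encoding
multiplies the edit distance of *every* pair of strings (of any lengths) by `L`, up to a factor
in `[1 - ε, 1]`; in particular such a code exists. -/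
theorem result (N q L : ℕ) (ε : ℝ) (hε : 0 < ε) (hε1 : ε < 1) (hN : 2 ≤ N)
    (hq : 503 / ε ^ 2 ≤ q) (hL : 15 * Real.log N / ε ≤ L) :
    N * {c : Fin N → Fin L → Fin q | ¬ ∀ x y : List (Fin N),
        (1 - ε) * (L * ed x y) ≤ ed (encode c x) (encode c y) ∧
        ed (encode c x) (encode c y) ≤ L * ed x y}.ncard ≤
      Fintype.card (Fin N → Fin L → Fin q) ∧
    ∃ c : Fin N → Fin L → Fin q, ∀ x y : List (Fin N),
      (1 - ε) * (L * ed x y) ≤ ed (encode c x) (encode c y) ∧
      ed (encode c x) (encode c y) ≤ L * ed x y := by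
  have h := main_alpha N q L ε hε hε1 hN hq hL
  refine ⟨h, ?_⟩
  by_contra hcon
  push Not at hcon
  have hall : {c : Fin N → Fin L → Fin q | ¬ ∀ x y : List (Fin N),
        (1 - ε) * (L * ed x y) ≤ ed (encode c x) (encode c y) ∧
        ed (encode c x) (encode c y) ≤ L * ed x y} = Set.univ := by
    refine Set.eq_univ_of_forall ?_
    intro c hc
    obtain ⟨x, y, hxy⟩ := hcon c
    have h1 := hc x y
    exact absurd h1.2 (not_le.mpr (hxy h1.1))
  rw [hall, Set.ncard_univ, Nat.card_eq_fintype_card] at h
  have hq0 : 0 < q := by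
    have h1 : (0 : ℝ) < 503 / ε ^ 2 := by positivity
    have h2 : (0 : ℝ) < q := lt_of_lt_of_le h1 hq
    exact_mod_cast h2
  have hpos : 0 < Fintype.card (Fin N → Fin L → Fin q) := by
    simp only [Fintype.card_fun, Fintype.card_fin]
    positivity
  nlinarith

end Vale.Agent.Results.P315.AlphabetReduction
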